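import Vale.Agent.P268.T.H327.HP

/-!
# P268, topological half: the left family of SPLIT

The sheet `k` is next to the sheet `j` (constant centre `vj` and normal `e` over `x i₀ ≤ 0`).  The
family `LF` over `(θ, u)` joins the normal form in which `k` comes down to `j` just left of the
wall `{p i₀ = 0}` (`θ = 0`, `u = 0`) with the hairpin form (`θ = 1`, `u = -4`).

In the column of `j`: `g = ‖s‖`, `w = p i₀`, `λ = ⟪v - g vj, f⟫`; the hairpin plate is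
`‖(W, μ)‖ ≤ ε g`, with
`W = max (K w + (1-θ) λ + θ |λ - (3/2) r₀ g|) (λ - 2 r₀ g) (T - λ)`,
`T = clamp (K (w - u u₀)) 0 (r₀ g)`; its two layers far left of the wall are `λ = 2 r₀ g` (sheet
`k`) and `λ = T` (sheet `t`).
-/

set_option linter.unusedSectionVars false

namespace Vale.Agent.P268.T.H240

open Set Filter Topology Metric

/-- Data of the left family: the other sheets `b`, `n` (they contain the sheet `j`), the sheet
`k` over `x i₀ ≤ 0`, the constant centre `vj` of `j`, the direction `f` of the displacement, and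
the unit `r0`. -/
structure LData (κ P V : Type*) where
  /-- centres of the other sheets -/
  b : κ → P → V
  /-- normals of the other sheets -/
  n : κ → P → V
  /-- centre of the sheet `k` -/
  bk : P → V
  /-- normal of the sheet `k` -/
  nk : P → V
  /-- centre of the sheet `j` over `x i₀ ≤ 0` -/
  vj : V
  /-- direction of the displacement -/
  f : V
  /-- unit of length -/
  r0 : ℝ

/-- Position of the sheet `t` (`g` = gauge, `w` = wall coordinate, `z` = `u₀`). -/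
noncomputable def lT (r0 K u g w z : ℝ) : ℝ := max 0 (min (r0 * g) (K * (w - u * z)))

/-- The first component of the hairpin plate (`l` = `λ`). -/
noncomputable def lW (r0 K θ u g w z l : ℝ) : ℝ :=
  max (max (K * w + (1 - θ) * l + θ * |l - 3 / 2 * r0 * g|) (l - 2 * r0 * g))
    (lT r0 K u g w z - l)

variable {T V κ ι : Type*} [TopologicalSpace T] [NormedAddCommGroup V] [InnerProductSpace ℝ V]
  [Fintype ι] [DecidableEq ι]

/-- Domain function of the sheets `k` and `t`. -/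
noncomputable def ldom (i₀ : ι) (M K r0 : ℝ) (s : ℝ × (ι → ℝ)) : ℝ :=
  min (M * (s.1 - ‖s.2‖ / 2)) (M * (-(K * s.2 i₀) - 3 * r0 * ‖s‖))

/-- Domain function of the hairpin plate. -/
noncomputable def lfdom (i₀ : ι) (M K r0 : ℝ) (s : ℝ × (ι → ℝ)) : ℝ :=
  min (M * (s.1 - ‖s.2‖ / 2)) (M * (K * s.2 i₀ + 4 * r0 * ‖s‖))

/-- The plates of the left family. -/
noncomputable def lplates (i₀ : ι) (e : V) (ε R M K : ℝ) (D : LData κ (ι → ℝ) V) (θ u : T → ℝ) :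
    SheetData T ((ℝ × (ι → ℝ)) × V) V (HIx κ) where
  w := fun τ a x => match a with
    | .slab => x.2
    | .sh (.inl a) => x.2 - ‖x.1‖ • D.b a (kap x.1)
    | .sh (.inr true) => x.2 - ‖x.1‖ • D.bk (lf i₀ 0 (kap x.1))
    | .sh (.inr false) => x.2 - ‖x.1‖ • D.vj - lT D.r0 K (u τ) ‖x.1‖ (x.1.2 i₀) x.1.1 • D.f
    | .fold => x.2 - ‖x.1‖ • D.vj +
        (lW D.r0 K (θ τ) (u τ) ‖x.1‖ (x.1.2 i₀) x.1.1 (inner ℝ (x.2 - ‖x.1‖ • D.vj) D.f) -
          inner ℝ (x.2 - ‖x.1‖ • D.vj) D.f) • D.f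
  ν := fun _ a x => match a with
    | .slab => e
    | .sh (.inl a) => D.n a (kap x.1)
    | .sh (.inr true) => D.nk (lf i₀ 0 (kap x.1))
    | .sh (.inr false) => e
    | .fold => e
  r := fun _ a x => match a with
    | .slab => R * ‖x.1‖
    | .sh _ => ε * ‖x.1‖
    | .fold => ε * ‖x.1‖
  σ := fun _ a x => match a with
    | .slab => M * (‖x.1.2‖ - |x.1.1|)
    | .sh (.inl _) => M * (x.1.1 - ‖x.1.2‖ / 2)
    | .sh (.inr _) => ldom i₀ M K D.r0 x.1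
    | .fold => lfdom i₀ M K D.r0 x.1

/-- The functions of the left family. -/
noncomputable def LF [Fintype κ] (i₀ : ι) (e : V) (ε R M K : ℝ) (D : LData κ (ι → ℝ) V)
    (θ u : ℝ) : (ℝ × (ι → ℝ)) × V → ℂ :=
  (lplates i₀ e ε R M K D (fun _ : Unit => θ) (fun _ => u)).fn ε (fun x => ‖x.1‖) ()

/-- Hypotheses on the data and the parameters of the left family.  `j` is the sheet which is
doubled. -/
structure LAdm (i₀ : ι) (e : V) (j : κ) (ε R M K : ℝ) (D : LData κ (ι → ℝ) V) : Prop where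
  /-- the other sheets -/
  oth : BData e D.b D.n
  ff : ‖D.f‖ = 1
  fe : inner ℝ D.f e = 0
  ve : inner ℝ D.vj e = 0
  /-- the sheet `j` is constant over `x i₀ ≤ 1 / 4` -/
  jb : ∀ x ∈ closedBall (0 : ι → ℝ) 1, x i₀ ≤ 1 / 4 → D.b j x = D.vj ∧ D.n j x = e
  /-- the sheet `k` -/
  cbk : ContinuousOn D.bk {x | x ∈ closedBall (0 : ι → ℝ) 1 ∧ x i₀ ≤ 0}
  cnk : ContinuousOn D.nk {x | x ∈ closedBall (0 : ι → ℝ) 1 ∧ x i₀ ≤ 0}
  nnk : ∀ x ∈ closedBall (0 : ι → ℝ) 1, x i₀ ≤ 0 → ‖D.nk x‖ = 1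
  hbk : ∀ x : ι → ℝ, ‖x‖ = 1 → x i₀ ≤ 0 → inner ℝ (D.bk x) e = 0 ∧ D.nk x = e
  /-- near the wall the sheet `k` is `vj + 2 r₀ f` -/
  kb : ∀ x ∈ closedBall (0 : ι → ℝ) 1, -(1 / 4) ≤ x i₀ → x i₀ ≤ 0 →
    D.bk x = D.vj + (2 * D.r0) • D.f ∧ D.nk x = e
  /-- distances -/
  dkj : ∀ x ∈ closedBall (0 : ι → ℝ) 1, x i₀ ≤ 0 → 2 * D.r0 ≤ ‖D.bk x - D.vj‖
  dk : ∀ x ∈ closedBall (0 : ι → ℝ) 1, x i₀ ≤ 0 → ∀ a, 4 * ε ≤ ‖D.bk x - D.b a x‖
  dj : ∀ x ∈ closedBall (0 : ι → ℝ) 1, x i₀ ≤ 1 / 4 → ∀ a, a ≠ j → 4 * D.r0 ≤ ‖D.b a x - D.vj‖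
  /-- parameters -/
  hε : 0 < ε
  hr : 32 * ε ≤ D.r0
  hR : ε ≤ R
  hM : 16 * R ≤ M
  hMr : 2 * R ≤ M * D.r0
  hK : 64 * D.r0 ≤ K
  hb : ∀ a, ∀ x ∈ closedBall (0 : ι → ℝ) 1, ‖D.b a x‖ + 2 * ε < R
  hbR : ∀ x ∈ closedBall (0 : ι → ℝ) 1, x i₀ ≤ 0 → ‖D.bk x‖ + 2 * ε < R
  hvR : ‖D.vj‖ + 4 * D.r0 < R
  hd : ∀ a a', a ≠ a' → ∀ x ∈ closedBall (0 : ι → ℝ) 1, 4 * ε ≤ ‖D.b a x - D.b a' x‖

end Vale.Agent.P268.T.H240
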