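import Vale.Agent.P268.T.H240.Start
import Vale.Agent.P268.T.H782.SplitData
import Vale.Agent.P268.T.H782.LBase
import Vale.Agent.P268.T.H545.HPHom
import Vale.Agent.P268.T.H782.SplitZ
import Vale.Agent.P268.T.H354.ZFam2
import Vale.Agent.P268.T.H366.HPGlue
import Vale.Agent.P268.T.H5.ZipBase

/-!
# P268, topological half: the splitting, assembly

`N(b) ~ M ~ LF(0,0) ~ LF(1,-3) ~ HP(splitData)`.
-/

set_option linter.unusedSectionVars false

namespace Vale.Agent.P268.T.H240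

open Set Filter Topology Metric

/-- The ZIP. -/
def ZipProp : Prop :=
  ∀ (d : ℕ) (A : Type) [Fintype A] [DecidableEq A] (b ν : A → Pk d → Vk d) (j k : A)
    (ε R M K : ℝ), Z293.ZDat 0 (frk d).h ε j k b ν → Adm ε R M b → 16 ≤ K →
    VEq (NN (frk d).h ε R M b ν : Ek d → ℂ)
      (Z293.ZN 0 (frk d).h ε R M K j k b ν : Ek d → ℂ)

/-- The left family. -/
def LeftProp : Prop :=
  ∀ (d : ℕ) (κ : Type) [Fintype κ] (j : κ) (D : LData κ (Pk d) (Vk d)) (ε R M K : ℝ),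
    LAdm 0 (frk d).h j ε R M K D → 64 * (‖D.vj‖ + 2 * D.r0) ≤ K →
    VEq (LF 0 (frk d).h ε R M K D 0 0 : Ek d → ℂ) (LF 0 (frk d).h ε R M K D 1 (-3) : Ek d → ℂ)

/-- Gluing conditions for the left family. -/
theorem lGlue {d : ℕ} {κ : Type} [Fintype κ] {j : κ} {D : LData κ (Pk d) (Vk d)}
    {ε R M K θ u : ℝ} (h : LAdm 0 (frk d).h j ε R M K D) (hθ : θ ∈ Icc (0 : ℝ) 1) :
    Glue (univ : Set Unit) ε (fun x : Ek d => ‖x.1‖)
      (lplates 0 (frk d).h ε R M K D (fun _ : Unit => θ) (fun _ => u)).rho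
      (lplates 0 (frk d).h ε R M K D (fun _ : Unit => θ) (fun _ => u)).be :=
  (H782.lplates_base h (frk d).hh continuousOn_const continuousOn_const fun _ _ => hθ).glue

/-- Gluing conditions at one parameter. -/
theorem glue_at {E A T : Type*} [NormedAddCommGroup E] [NormedSpace ℝ E] [Fintype A]
    [Nonempty A] [TopologicalSpace T] {s : Set T} {η : ℝ} {N : E → ℝ} {rho be : T → A → E → ℝ}
    (h : Glue s η N rho be) {τ : T} (hτ : τ ∈ s) :
    Glue (univ : Set Unit) η N (fun _ => rho τ) (fun _ => be τ) where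
  hη := h.hη
  cN := h.cN
  nN := h.nN
  cr := fun a => (h.cr a).comp (f := fun p : Unit × E => (τ, p.2)) (by fun_prop)
    (fun p _ => ⟨hτ, mem_univ _⟩)
  cb := fun a => (h.cb a).comp (f := fun p : Unit × E => (τ, p.2)) (by fun_prop)
    (fun p hp => ⟨hτ, hp.2⟩)
  sep := fun _ _ => h.sep τ hτ
  hN := h.hN
  hr := fun _ _ => h.hr τ hτ
  hb := fun _ _ => h.hb τ hτ
  neg := fun _ _ => h.neg τ hτ
  bd := fun a => by
    obtain ⟨B, h1, h2, h3⟩ := h.bd a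
    exact ⟨fun _ => B τ, h1.comp (f := fun p : Unit × E => (τ, p.2)) (by fun_prop)
      (fun p _ => ⟨hτ, mem_univ _⟩), fun _ _ => h2 τ hτ, fun _ _ => h3 τ hτ⟩

/-- Gluing conditions at the end of the ZIP. -/
theorem zGlue {d : ℕ} {A : Type} [Fintype A] [DecidableEq A] {b ν : A → Pk d → Vk d} {j k : A}
    {ε R M K : ℝ} (h : Z293.ZDat 0 (frk d).h ε j k b ν) (hA : Adm ε R M b) (hK : 16 ≤ K) :
    Glue (univ : Set Unit) ε (fun x : Ek d => ‖x.1‖)
      (Z293.zpl (frk d).h ε R M j k (fun _ : Unit => b) (fun _ => ν)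
        (fun _ s => K * (s.2 0 / ‖s‖))).rho
      (Z293.zpl (frk d).h ε R M j k (fun _ : Unit => b) (fun _ => ν)
        (fun _ s => K * (s.2 0 / ‖s‖))).be := by
  have h1 := glue_at (Z293.zbase (Z354.zfam2 h (frk d).hh hA (le_refl (16 : ℝ)) hK) hA.hε).glue
    (τ := (1 : ℝ)) ⟨zero_le_one, le_rfl⟩
  have e1 : ∀ s : ℝ × Pk d, (1 - 1) * (16 * Z293.zY 0 s) + 1 * (K * (s.2 0 / ‖s‖)) =
      K * (s.2 0 / ‖s‖) := fun s => by ring
  have e2 : (fun _ : Unit => (Z293.zpl (frk d).h ε R M j k (fun _ : ℝ => b) (fun _ => ν)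
      (fun t s => (1 - t) * (16 * Z293.zY 0 s) + t * (K * (s.2 0 / ‖s‖)))).rho (1 : ℝ)) =
      (Z293.zpl (frk d).h ε R M j k (fun _ : Unit => b) (fun _ => ν)
        (fun _ s => K * (s.2 0 / ‖s‖))).rho := by
    funext u a x
    simp only [SheetData.rho, SheetData.tp, Z293.zpl, e1]
  have e3 : (fun _ : Unit => (Z293.zpl (frk d).h ε R M j k (fun _ : ℝ => b) (fun _ => ν)
      (fun t s => (1 - t) * (16 * Z293.zY 0 s) + t * (K * (s.2 0 / ‖s‖)))).be (1 : ℝ)) =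
      (Z293.zpl (frk d).h ε R M j k (fun _ : Unit => b) (fun _ => ν)
        (fun _ s => K * (s.2 0 / ‖s‖))).be := by
    funext u a x
    simp only [SheetData.be, Z293.zpl, e1]
  rw [e2, e3] at h1
  exact h1

section

variable {V A ι : Type*} [NormedAddCommGroup V] [InnerProductSpace ℝ V]
  [Fintype ι] [DecidableEq ι] [DecidableEq A]

theorem mplates_eq {i₀ : ι} {e : V} {ε R M K : ℝ} {b ν : A → (ι → ℝ) → V} {j k : A} {r : ℝ} :
    mplates e ε R M b ν j k (fun _ : Unit => zlin i₀ K r) =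
      Z293.zpl e ε R M j k (fun _ : Unit => b) (fun _ => ν)
        (fun _ s => K / (2 * r) * (s.2 i₀ / ‖s‖)) := by
  have h : ∀ s : ℝ × (ι → ℝ), zlin i₀ K r s = Z293.c01 (K / (2 * r) * (s.2 i₀ / ‖s‖) + 1) := by
    intro s
    unfold zlin
    rw [add_comm, div_mul_div_comm]
  unfold mplates Z293.zpl
  simp only [h]
  rfl

theorem MF_eq [Fintype A] {i₀ : ι} {e : V} {ε R M K : ℝ} {b ν : A → (ι → ℝ) → V} {j k : A}
    {r : ℝ} : MF e ε R M b ν j k (zlin i₀ K r) = Z293.ZN i₀ e ε R M (K / (2 * r)) j k b ν := by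
  unfold MF Z293.ZN
  rw [mplates_eq]

end

/-- Changing the parameters of a hairpin form. -/
theorem hp_params {d : ℕ} {κ : Type} [Fintype κ] {D : HData κ (Pk d) (Vk d)}
    (hD : HPData 0 (frk d).h D) {ε R M K ε' R' M' K' : ℝ} (h : HAdm 0 ε R M K D)
    (h' : HAdm 0 ε' R' M' K' D) :
    VEq (HP 0 (frk d).h ε R M K D : Ek d → ℂ) (HP 0 (frk d).h ε' R' M' K' D : Ek d → ℂ) :=
  blockHPHom d κ (fun _ => D) ε R M K ε' R' M' K' (hD.const _) h h'

/-- **The splitting.** -/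
theorem blockSplit_of (hZ : ZipProp) (hL : LeftProp) : BlockSplit := by
  intro d A _ _ b ν a j k v a₀ r S ε R M ε' R' M' K' hA hH
  obtain ⟨ε₁, hε₁, R₁, hR₁, hpar⟩ := H782.split_params S
  have hr := S.hr
  set R₂ : ℝ := max R₁ ε₁ with hR₂
  set M₂ : ℝ := max (32 * R₂) (2 * R₂ / r) with hM₂
  set K₂ : ℝ := max (64 * r) (64 * (‖v‖ + 2 * r)) with hK₂
  have hMr : 2 * R₂ ≤ M₂ * r := by
    have : 2 * R₂ / r ≤ M₂ := le_max_right _ _
    rwa [div_le_iff₀ hr] at this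
  have hM32 : 32 * R₂ ≤ M₂ := le_max_left _ _
  have hK64 : 64 * r ≤ K₂ := le_max_left _ _
  have he : 32 * (min ε₁ (r / 32)) ≤ r := by
    have := min_le_right ε₁ (r / 32)
    linarith
  have hepos : 0 < min ε₁ (r / 32) := lt_min hε₁ (by positivity)
  obtain ⟨h1, h2, h3⟩ := hpar (min ε₁ (r / 32)) ⟨hepos, min_le_left _ _⟩ R₂ (le_max_left _ _)
    M₂ K₂ hM32 hMr hK64
  set ε₂ : ℝ := min ε₁ (r / 32) with hε₂
  have hHPd := H782.split_hpdata S
  have hz : Z293.ZDat 0 (frk d).h ε₂ j k b ν := H782.split_zdat S (by linarith)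
  have h2' : LAdm 0 (frk d).h (⟨j, S.jk⟩ : {i : A // i ≠ k}) ε₂ R₂ M₂ K₂
    (toL b ν k v a₀ r) := h2
  have hK16 : 16 ≤ K₂ / (2 * r) := by
    rw [le_div_iff₀ (by positivity)]
    linarith
  -- step 1: parameters
  have s1 : VEq (NN (frk d).h ε R M b ν : Ek d → ℂ) (NN (frk d).h ε₂ R₂ M₂ b ν : Ek d → ℂ) :=
    NN_veq_adm S.dat (frk d).hh hA h1
  -- step 2: ZIP
  have s2 := hZ d A b ν j k ε₂ R₂ M₂ (K₂ / (2 * r)) hz h1 hK16
  rw [← MF_eq] at s2
  -- step 3: START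
  have gL0 := lGlue (θ := 0) (u := 0) h2' ⟨le_rfl, zero_le_one⟩
  have gL1 := lGlue (θ := 1) (u := -3) h2' ⟨zero_le_one, le_rfl⟩
  have gM : Glue (univ : Set Unit) ε₂ (fun x : Ek d => ‖x.1‖)
      (sM 0 (frk d).h ε₂ R₂ M₂ K₂ b ν j k r).rho (sM 0 (frk d).h ε₂ R₂ M₂ K₂ b ν j k r).be := by
    rw [sM, mplates_eq]
    exact zGlue hz h1 hK16
  have s3 := lf_start_veq S.jk h2' (fun x hx h0 => (S.par x (mem_closedBall_zero_iff.mp hx)
    (by linarith)).2) gM gL0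
  have s4 := hL d _ (⟨j, S.jk⟩ : {i : A // i ≠ k}) (toL b ν k v a₀ r) ε₂ R₂ M₂ K₂ h2'
    (le_max_right _ _)
  have gH : Glue (univ : Set Unit) ε₂ (fun x : Ek d => ‖x.1‖)
      (eH 0 (frk d).h ε₂ R₂ M₂ K₂ (toL b ν k v a₀ r)).rho
      (eH 0 (frk d).h ε₂ R₂ M₂ K₂ (toL b ν k v a₀ r)).be :=
    hplates_glue (s := (univ : Set Unit)) (frk d).hh continuousOn_const continuousOn_const
      continuousOn_const continuousOn_const hHPd (fun _ _ => h3) h1.hε (fun _ _ => le_rfl)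
  have s5 := lf_end_veq h2' gL1 gH
  have s6 : VEq (HP 0 (frk d).h ε₂ R₂ M₂ K₂ (splitData b ν k v a₀ r) : Ek d → ℂ)
      (HP 0 (frk d).h ε' R' M' K' (splitData b ν k v a₀ r) : Ek d → ℂ) :=
    hp_params hHPd h3 hH
  exact s1.trans (s2.trans (s3.trans (s4.trans (s5.trans s6))))

end Vale.Agent.P268.T.H240
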