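import Vale.Agent.P268.T.H240.LDef
import Vale.Agent.P268.T.DeltaR

/-!
# P268, topological half: the end of the left family is a hairpin form
-/

set_option linter.unusedSectionVars false

namespace Vale.Agent.P268.T.H240

open Set Filter Topology Metric

/-- Two glued functions have equivalent zero sets when each nonnegative piece of one of them is
dominated by a piece of the other one, with the same imaginary part. -/
theorem veq_of_dom {E A B T T' : Type*} [NormedAddCommGroup E] [NormedSpace ℝ E] [Fintype A]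
    [Nonempty A] [Fintype B] [Nonempty B] [TopologicalSpace T] [TopologicalSpace T']
    {s : Set T} {η : ℝ} {N N' : E → ℝ} {rho be : T → A → E → ℝ}
    (h : Glue s η N rho be) {τ : T} (hτ : τ ∈ s)
    {s' : Set T'} {η' : ℝ} {rho' be' : T' → B → E → ℝ}
    (h' : Glue s' η' N' rho' be') {τ' : T'} (hτ' : τ' ∈ s')
    (H : ∀ x, x ≠ 0 → ∀ a, 0 ≤ rho τ a x → ∃ b, rho τ a x ≤ rho' τ' b x ∧
      be' τ' b x = be τ a x)
    (H' : ∀ x, x ≠ 0 → ∀ b, 0 ≤ rho' τ' b x → ∃ a, rho' τ' b x ≤ rho τ a x ∧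
      be τ a x = be' τ' b x) :
    VEq (gfn η N rho be τ) (gfn η' N' rho' be' τ') := by
  refine VEq.of_iff fun x => ?_
  by_cases hx : x = 0
  · rw [hx, (h.hom1 hτ).zero, (h'.hom1 hτ').zero]
  rw [gfn_eq_zero_iff h hτ hx, gfn_eq_zero_iff h' hτ' hx]
  constructor
  · rintro ⟨h1, a, ha, hb⟩
    obtain ⟨b, hb1, hb2⟩ := H x hx a ha.ge
    have hle : gre rho' τ' x ≤ 0 := by
      obtain ⟨b', hb'⟩ := exists_gre rho' τ' x
      by_contra hc
      rw [hb'] at hc
      push Not at hc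
      obtain ⟨a', ha', -⟩ := H' x hx b' hc.le
      have := gre_ge (rho := rho) τ a' x
      linarith
    have hge := gre_ge (rho := rho') τ' b x
    exact ⟨by linarith, b, by linarith, hb2.trans hb⟩
  · rintro ⟨h1, b, hb, hbe⟩
    obtain ⟨a, ha1, ha2⟩ := H' x hx b hb.ge
    have hle : gre rho τ x ≤ 0 := by
      obtain ⟨a', ha'⟩ := exists_gre rho τ x
      by_contra hc
      rw [ha'] at hc
      push Not at hc
      obtain ⟨b', hb', -⟩ := H x hx a' hc.le
      have := gre_ge (rho := rho') τ' b' x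
      linarith
    have hge := gre_ge (rho := rho) τ a x
    exact ⟨by linarith, a, by linarith, ha2.trans hbe⟩

/-! ### Real functions -/

theorem lT_end {r0 K g w z p : ℝ} (hr : 0 ≤ r0) (hK : 2 * r0 ≤ K) (hg : g ≤ 2 * z)
    (hg0 : 0 ≤ g) (hp : p ≤ 2 * z) (hw : -p ≤ w) : lT r0 K (-3) g w z = r0 * g := by
  unfold lT
  have h1 : g / 2 ≤ w - -3 * z := by linarith
  have h2 : 2 * r0 * (g / 2) ≤ K * (w - -3 * z) :=
    mul_le_mul hK h1 (by linarith) (by linarith)
  have h3 : 2 * r0 * (g / 2) = r0 * g := by ring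
  rw [h3] at h2
  rw [min_eq_left h2]
  exact max_eq_right (by positivity)

theorem lW_end {r0 K u g w z l : ℝ} (hT : lT r0 K u g w z = r0 * g) :
    lW r0 K 1 u g w z l = |l - 3 / 2 * r0 * g| + max (K * w) (-(r0 / 2 * g)) := by
  unfold lW
  rw [hT]
  rcases le_total 0 (l - 3 / 2 * r0 * g) with h | h
  · rw [abs_of_nonneg h]
    rcases le_total (K * w) (-(r0 / 2 * g)) with h2 | h2
    · rw [max_eq_right h2]
      rw [max_eq_left, max_eq_right]
      · ring
      · linarith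
      · exact le_max_of_le_right (by linarith)
    · rw [max_eq_left h2, max_eq_left, max_eq_left]
      · ring
      · linarith
      · exact le_max_of_le_left (by linarith)
  · rw [abs_of_nonpos h]
    rcases le_total (K * w) (-(r0 / 2 * g)) with h2 | h2
    · rw [max_eq_right h2, max_eq_right]
      · ring
      · exact max_le (by linarith) (by linarith)
    · rw [max_eq_left h2, max_eq_left, max_eq_left]
      · ring
      · linarith
      · exact le_max_of_le_left (by linarith)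

section

variable {T V κ ι : Type*} [TopologicalSpace T] [NormedAddCommGroup V] [InnerProductSpace ℝ V]
  [Fintype ι] [DecidableEq ι]

/-- The hairpin data of the end of the left family. -/
noncomputable def LData.toH (e : V) (D : LData κ (ι → ℝ) V) : HData κ (ι → ℝ) V where
  b := D.b
  n := D.n
  bk := D.bk
  nk := D.nk
  bt _ := D.vj + D.r0 • D.f
  nt _ := e
  m _ := D.vj + (3 / 2 * D.r0) • D.f
  ph _ := D.f
  nw _ := e
  r0 := D.r0 / 2
  c := 0

/-! ### The base -/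

theorem kap_ge {i₀ : ι} {s : ℝ × (ι → ℝ)} (hs : s ≠ 0) {c : ℝ} (hc : 0 ≤ c)
    (h : -(c * ‖s‖) ≤ 2 * s.2 i₀) : -c ≤ kap s i₀ := by
  have hm := kap_den_pos hs
  have hn : ‖s‖ ≤ max |s.1| (2 * ‖s.2‖) := by
    rw [norm_base]
    exact max_le_max le_rfl (by linarith [norm_nonneg s.2])
  rw [kap, Pi.smul_apply, smul_eq_mul, div_mul_eq_mul_div, le_div_iff₀ hm]
  nlinarith

theorem lf_mem {i₀ : ι} {x : ι → ℝ} (hx : x ∈ closedBall (0 : ι → ℝ) 1) :
    lf i₀ 0 x ∈ closedBall (0 : ι → ℝ) 1 := by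
  rw [mem_closedBall_zero_iff] at hx ⊢
  rw [pi_norm_le_iff_of_nonneg zero_le_one] at hx ⊢
  intro i
  unfold lf
  by_cases hi : i = i₀
  · subst hi
    rw [Function.update_self, Real.norm_eq_abs, abs_le]
    have := hx i
    rw [Real.norm_eq_abs, abs_le] at this
    constructor
    · exact le_min this.1 (by norm_num)
    · exact (min_le_right _ _).trans zero_le_one
  · rw [Function.update_of_ne hi]
    exact hx i

theorem lf_le {i₀ : ι} (x : ι → ℝ) : lf i₀ 0 x i₀ ≤ 0 := by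
  unfold lf
  rw [Function.update_self]
  exact min_le_right _ _

theorem lf_of_le {i₀ : ι} {x : ι → ℝ} (hx : x i₀ ≤ 0) : lf i₀ 0 x = x := by
  unfold lf
  rw [min_eq_left hx, Function.update_eq_self]

variable {i₀ : ι} {e : V} {j : κ} {ε R M K : ℝ} {D : LData κ (ι → ℝ) V}

theorem LAdm.r0_pos (h : LAdm i₀ e j ε R M K D) : 0 < D.r0 := by
  linarith [h.hε, h.hr]

theorem LAdm.M_pos (h : LAdm i₀ e j ε R M K D) : 0 < M := by
  linarith [h.hε, h.hR, h.hM]

/-- Near the wall the sheet `k` is `vj + 2 r₀ f`. -/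
theorem LAdm.near (h : LAdm i₀ e j ε R M K D) {s : ℝ × (ι → ℝ)} (hs : s ≠ 0)
    (hw : -(K * s.2 i₀) ≤ 4 * D.r0 * ‖s‖) :
    D.bk (lf i₀ 0 (kap s)) = D.vj + (2 * D.r0) • D.f ∧ D.nk (lf i₀ 0 (kap s)) = e := by
  have hr := h.r0_pos
  have hK := h.hK
  have hn : 0 ≤ ‖s‖ := norm_nonneg s
  have h1 : -(1 / 8 * ‖s‖) ≤ 2 * s.2 i₀ := by
    by_contra hc
    push Not at hc
    have h2 : s.2 i₀ < -(1 / 16 * ‖s‖) := by linarith
    have h3 : s.2 i₀ ≤ 0 := by linarith [mul_nonneg (by norm_num : (0 : ℝ) ≤ 1 / 16) hn]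
    have h4 : 64 * D.r0 * -s.2 i₀ ≤ K * -s.2 i₀ :=
      mul_le_mul_of_nonneg_right hK (by linarith)
    nlinarith
  have h5 := kap_ge hs (by norm_num : (0 : ℝ) ≤ 1 / 8) h1
  refine h.kb _ (lf_mem (kap_mem s)) ?_ (lf_le _)
  unfold lf
  rw [Function.update_self]
  exact le_min (by linarith) (by norm_num)


theorem wq_zero (s : ℝ × (ι → ℝ)) : wq i₀ 0 s = s.2 i₀ := by
  unfold wq
  ring

/-- On the domain the sheet `t` of the end of the family stands at `r₀ g`. -/
theorem LAdm.T_eq (h : LAdm i₀ e j ε R M K D) {s : ℝ × (ι → ℝ)} (hA : 0 ≤ s.1 - ‖s.2‖ / 2) :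
    lT D.r0 K (-3) ‖s‖ (s.2 i₀) s.1 = D.r0 * ‖s‖ := by
  have hr := h.r0_pos
  have hp := norm_nonneg s.2
  have hz : 0 ≤ s.1 := by linarith
  have hw : |s.2 i₀| ≤ ‖s.2‖ := norm_le_pi_norm s.2 i₀
  refine lT_end hr.le (by linarith [h.hK]) ?_ (norm_nonneg s) (p := ‖s.2‖) (by linarith)
    (abs_le.mp hw).1
  rw [norm_base, abs_of_nonneg hz]
  exact max_le (by linarith) (by linarith)

theorem inner_shift {y f : V} (hf : ‖f‖ = 1) (c : ℝ) : inner ℝ (y + c • f) f = inner ℝ y f + c := by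
  rw [inner_add_left, inner_smul_left, real_inner_self_eq_norm_sq, hf]
  simp

theorem inner_shift' {y f e : V} (hf : inner ℝ f e = 0) (c : ℝ) :
    inner ℝ (y + c • f) e = inner ℝ y e := by
  rw [inner_add_left, inner_smul_left, hf]
  simp

theorem inner_shift_sub {y f e : V} (hf : inner ℝ f e = 0) (c : ℝ) :
    inner ℝ (y - c • f) e = inner ℝ y e := by
  rw [inner_sub_left, inner_smul_left, hf]
  simp

/-- Reflected sheets. -/
theorem norm_refl {y f : V} (hf : ‖f‖ = 1) (r : ℝ) :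
    ‖y + (r - 2 * inner ℝ y f) • f‖ = ‖y - r • f‖ := by
  have h1 : ∀ c : ℝ, ‖y + c • f‖ ^ 2 = ‖y‖ ^ 2 + 2 * c * inner ℝ y f + c ^ 2 := by
    intro c
    rw [← real_inner_self_eq_norm_sq, inner_add_left, inner_add_right, inner_add_right,
      inner_smul_left, inner_smul_right, inner_smul_left, inner_smul_right,
      real_inner_self_eq_norm_sq, real_inner_self_eq_norm_sq, hf, real_inner_comm f y]
    simp
    ring
  have h2 : ‖y + (r - 2 * inner ℝ y f) • f‖ ^ 2 = ‖y - r • f‖ ^ 2 := by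
    have h3 : y - r • f = y + (-r) • f := by rw [neg_smul, sub_eq_add_neg]
    rw [h3, h1, h1]
    ring
  exact (pow_left_inj₀ (norm_nonneg _) (norm_nonneg _) two_ne_zero).mp h2


/-! ### The two families of plates -/

section Compare

variable (i₀ e ε R M K D)

/-- The plates at the end of the family. -/
noncomputable abbrev eL : SheetData Unit ((ℝ × (ι → ℝ)) × V) V (HIx κ) :=
  lplates i₀ e ε R M K D (fun _ => 1) (fun _ => -3)

/-- The plates of the hairpin form. -/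
noncomputable abbrev eH : SheetData Unit ((ℝ × (ι → ℝ)) × V) V (HIx κ) :=
  hplates i₀ e (fun _ => ε) (fun _ => R) (fun _ => M) (fun _ => K) (fun _ => D.toH e)

end Compare

variable {x : (ℝ × (ι → ℝ)) × V}

/-- Both fold plates agree over the domain. -/
theorem LAdm.fold_w (h : LAdm i₀ e j ε R M K D) (hA : 0 ≤ x.1.1 - ‖x.1.2‖ / 2) :
    (eL i₀ e ε R M K D).w () .fold x = (eH i₀ e ε R M K D).w () .fold x := by
  show x.2 - ‖x.1‖ • D.vj + (lW D.r0 K 1 (-3) ‖x.1‖ (x.1.2 i₀) x.1.1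
      (inner ℝ (x.2 - ‖x.1‖ • D.vj) D.f) - inner ℝ (x.2 - ‖x.1‖ • D.vj) D.f) • D.f =
    foldw (max (K * wq i₀ 0 x.1) (-(D.r0 / 2 * ‖x.1‖))) D.f
      (x.2 - ‖x.1‖ • (D.vj + (3 / 2 * D.r0) • D.f))
  rw [lW_end (h.T_eq hA), wq_zero]
  set y := x.2 - ‖x.1‖ • D.vj with hy
  have h1 : x.2 - ‖x.1‖ • (D.vj + (3 / 2 * D.r0) • D.f) = y + (-(3 / 2 * D.r0 * ‖x.1‖)) • D.f := by
    rw [hy]
    module
  rw [h1, foldw, inner_shift h.ff, add_assoc, ← add_smul]
  congr 2
  rw [show inner ℝ y D.f + -(3 / 2 * D.r0 * ‖x.1‖) = inner ℝ y D.f - 3 / 2 * D.r0 * ‖x.1‖ by ring]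
  ring

/-- Imaginary part of the fold plates. -/
theorem LAdm.fold_be (h : LAdm i₀ e j ε R M K D) :
    (eL i₀ e ε R M K D).be () .fold x = inner ℝ (x.2 - ‖x.1‖ • D.vj) e :=
  inner_shift' h.fe _

theorem LAdm.fold_be' (h : LAdm i₀ e j ε R M K D) (hA : 0 ≤ x.1.1 - ‖x.1.2‖ / 2) :
    (eH i₀ e ε R M K D).be () .fold x = inner ℝ (x.2 - ‖x.1‖ • D.vj) e := by
  rw [← h.fold_be (x := x)]
  show inner ℝ ((eH i₀ e ε R M K D).w () .fold x) e = inner ℝ ((eL i₀ e ε R M K D).w () .fold x) e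
  rw [h.fold_w hA]

theorem LAdm.t_w (h : LAdm i₀ e j ε R M K D) (hA : 0 ≤ x.1.1 - ‖x.1.2‖ / 2) :
    (eL i₀ e ε R M K D).w () (.sh (.inr false)) x =
      (x.2 - ‖x.1‖ • D.vj) - (D.r0 * ‖x.1‖) • D.f := by
  show x.2 - ‖x.1‖ • D.vj - lT D.r0 K (-3) ‖x.1‖ (x.1.2 i₀) x.1.1 • D.f = _
  rw [h.T_eq hA]

theorem t_w' : (eH i₀ e ε R M K D).w () (.sh (.inr false)) x =
      (x.2 - ‖x.1‖ • D.vj) - (D.r0 * ‖x.1‖) • D.f := by
  show x.2 - ‖x.1‖ • (D.vj + D.r0 • D.f) = _
  module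

theorem k_w : (eL i₀ e ε R M K D).w () (.sh (.inr true)) x =
    (eH i₀ e ε R M K D).w () (.sh (.inr true)) x := rfl

theorem LAdm.k_w (h : LAdm i₀ e j ε R M K D) (hx : x.1 ≠ 0)
    (hw : -(K * x.1.2 i₀) ≤ 4 * D.r0 * ‖x.1‖) :
    (eL i₀ e ε R M K D).w () (.sh (.inr true)) x =
      (x.2 - ‖x.1‖ • D.vj) - (2 * D.r0 * ‖x.1‖) • D.f := by
  show x.2 - ‖x.1‖ • D.bk (lf i₀ 0 (kap x.1)) = _
  rw [(h.near hx hw).1]
  module

theorem LAdm.k_be (h : LAdm i₀ e j ε R M K D) (hx : x.1 ≠ 0)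
    (hw : -(K * x.1.2 i₀) ≤ 4 * D.r0 * ‖x.1‖) :
    (eL i₀ e ε R M K D).be () (.sh (.inr true)) x = inner ℝ (x.2 - ‖x.1‖ • D.vj) e := by
  show inner ℝ ((eL i₀ e ε R M K D).w () (.sh (.inr true)) x) (D.nk (lf i₀ 0 (kap x.1))) = _
  rw [(h.near hx hw).2, h.k_w hx hw, inner_shift_sub h.fe]


/-! ### Domain functions -/

theorem L_sig (b : Bool) : (eL i₀ e ε R M K D).σ () (.sh (.inr b)) x =
    min (M * (x.1.1 - ‖x.1.2‖ / 2)) (M * (-(K * x.1.2 i₀) - 3 * D.r0 * ‖x.1‖)) := rfl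

theorem L_sigf : (eL i₀ e ε R M K D).σ () .fold x =
    min (M * (x.1.1 - ‖x.1.2‖ / 2)) (M * (K * x.1.2 i₀ + 4 * D.r0 * ‖x.1‖)) := rfl

theorem H_sig (b : Bool) : (eH i₀ e ε R M K D).σ () (.sh (.inr b)) x =
    min (M * (x.1.1 - ‖x.1.2‖ / 2)) (M * (-(K * x.1.2 i₀) - D.r0 * ‖x.1‖)) := by
  show min (M * (x.1.1 - ‖x.1.2‖ / 2)) (M * (-(K * wq i₀ 0 x.1) - 2 * (D.r0 / 2) * ‖x.1‖)) = _
  rw [wq_zero]
  congr 2
  ring

theorem H_sigf : (eH i₀ e ε R M K D).σ () .fold x =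
    min (M * (x.1.1 - ‖x.1.2‖ / 2)) (M * (K * x.1.2 i₀ + 2 * D.r0 * ‖x.1‖)) := by
  show min (M * (x.1.1 - ‖x.1.2‖ / 2)) (M * (K * wq i₀ 0 x.1 + 4 * (D.r0 / 2) * ‖x.1‖)) = _
  rw [wq_zero]
  congr 2
  ring

theorem tp_le (P : SheetData Unit ((ℝ × (ι → ℝ)) × V) V (HIx κ))
    {a : HIx κ} (hr : P.r () a x = ε * ‖x.1‖) : P.tp () a x ≤ ε * ‖x.1‖ := by
  unfold SheetData.tp
  rw [hr]
  linarith [norm_nonneg (P.w () a x)]

theorem LAdm.eps_le (h : LAdm i₀ e j ε R M K D) : ε * ‖x.1‖ ≤ M * (D.r0 / 2 * ‖x.1‖) := by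
  have h1 : ε ≤ M * (D.r0 / 2) := by linarith [h.hMr, h.hR]
  calc ε * ‖x.1‖ ≤ M * (D.r0 / 2) * ‖x.1‖ := mul_le_mul_of_nonneg_right h1 (norm_nonneg _)
    _ = _ := by ring

/-- Close to the wall the fold plate of the family contains both sheets. -/
theorem LAdm.fold_k (h : LAdm i₀ e j ε R M K D) (hA : 0 ≤ x.1.1 - ‖x.1.2‖ / 2)
    (hw : K * x.1.2 i₀ ≤ -(D.r0 / 2 * ‖x.1‖)) :
    (eL i₀ e ε R M K D).w () .fold x = (x.2 - ‖x.1‖ • D.vj) +
      (|inner ℝ (x.2 - ‖x.1‖ • D.vj) D.f - 3 / 2 * D.r0 * ‖x.1‖| - D.r0 / 2 * ‖x.1‖ -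
        inner ℝ (x.2 - ‖x.1‖ • D.vj) D.f) • D.f := by
  show x.2 - ‖x.1‖ • D.vj + (lW D.r0 K 1 (-3) ‖x.1‖ (x.1.2 i₀) x.1.1
      (inner ℝ (x.2 - ‖x.1‖ • D.vj) D.f) - inner ℝ (x.2 - ‖x.1‖ • D.vj) D.f) • D.f = _
  rw [lW_end (h.T_eq hA), max_eq_right hw]
  congr 2

theorem LAdm.fold_norm (h : LAdm i₀ e j ε R M K D) (hA : 0 ≤ x.1.1 - ‖x.1.2‖ / 2)
    (hw : K * x.1.2 i₀ ≤ -(D.r0 / 2 * ‖x.1‖)) :
    (3 / 2 * D.r0 * ‖x.1‖ ≤ inner ℝ (x.2 - ‖x.1‖ • D.vj) D.f →
      ‖(eL i₀ e ε R M K D).w () .fold x‖ = ‖(x.2 - ‖x.1‖ • D.vj) - (2 * D.r0 * ‖x.1‖) • D.f‖) ∧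
    (inner ℝ (x.2 - ‖x.1‖ • D.vj) D.f ≤ 3 / 2 * D.r0 * ‖x.1‖ →
      ‖(eL i₀ e ε R M K D).w () .fold x‖ = ‖(x.2 - ‖x.1‖ • D.vj) - (D.r0 * ‖x.1‖) • D.f‖) := by
  set y := x.2 - ‖x.1‖ • D.vj with hy
  rw [h.fold_k hA hw]
  constructor
  · intro hl
    rw [abs_of_nonneg (by linarith)]
    congr 1
    rw [sub_eq_add_neg y, ← neg_smul]
    congr 2
    ring
  · intro hl
    rw [abs_of_nonpos (by linarith), ← norm_refl h.ff]
    congr 3
    ring

theorem LAdm.inner_le (h : LAdm i₀ e j ε R M K D) {y : V} {c r : ℝ} (hy : ‖y - c • D.f‖ ≤ r) :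
    |inner ℝ y D.f - c| ≤ r := by
  have h1 : inner ℝ (y - c • D.f) D.f = inner ℝ y D.f - c := by
    rw [sub_eq_add_neg, ← neg_smul, inner_shift h.ff]
    ring
  rw [← h1]
  refine (abs_real_inner_le_norm _ _).trans ?_
  rw [h.ff, mul_one]
  exact hy

/-- **The end of the left family is the hairpin form.** -/
theorem lf_end_veq [Fintype κ] (h : LAdm i₀ e j ε R M K D)
    (hL : Glue (univ : Set Unit) ε (fun x : (ℝ × (ι → ℝ)) × V => ‖x.1‖)
      (eL i₀ e ε R M K D).rho (eL i₀ e ε R M K D).be)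
    (hH : Glue (univ : Set Unit) ε (fun x : (ℝ × (ι → ℝ)) × V => ‖x.1‖)
      (eH i₀ e ε R M K D).rho (eH i₀ e ε R M K D).be) :
    VEq (LF i₀ e ε R M K D 1 (-3)) (HP i₀ e ε R M K (D.toH e)) := by
  have hM := h.M_pos
  have hr0 := h.r0_pos
  refine veq_of_dom hL (mem_univ ()) hH (mem_univ ()) ?_ ?_
  · intro x hx a ha
    have hg : 0 ≤ ‖x.1‖ := norm_nonneg _
    have hrg : 0 ≤ D.r0 * ‖x.1‖ := by positivity
    rcases a with _ | (a | b) | _
    · exact ⟨.slab, le_rfl, rfl⟩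
    · exact ⟨.sh (.inl a), le_rfl, rfl⟩
    · have hs : (eL i₀ e ε R M K D).σ () (.sh (.inr b)) x ≤
          (eH i₀ e ε R M K D).σ () (.sh (.inr b)) x := by
        rw [L_sig, H_sig]
        refine min_le_min_left _ (mul_le_mul_of_nonneg_left ?_ hM.le)
        nlinarith
      have hA : 0 ≤ x.1.1 - ‖x.1.2‖ / 2 := by
        have h1 := ha.trans (min_le_right _ _)
        rw [L_sig] at h1
        have h2 := h1.trans (min_le_left _ _)
        exact nonneg_of_mul_nonneg_right h2 hM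
      cases b
      · refine ⟨.sh (.inr false), min_le_min ?_ hs, ?_⟩
        · show ε * ‖x.1‖ - ‖(eL i₀ e ε R M K D).w () (.sh (.inr false)) x‖ ≤
            ε * ‖x.1‖ - ‖(eH i₀ e ε R M K D).w () (.sh (.inr false)) x‖
          rw [h.t_w hA, t_w']
        · show inner ℝ ((eH i₀ e ε R M K D).w () (.sh (.inr false)) x) e =
            inner ℝ ((eL i₀ e ε R M K D).w () (.sh (.inr false)) x) e
          rw [h.t_w hA, t_w']
      · exact ⟨.sh (.inr true), min_le_min le_rfl hs, rfl⟩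
    · have hA : 0 ≤ x.1.1 - ‖x.1.2‖ / 2 := by
        have h1 := ha.trans (min_le_right _ _)
        rw [L_sigf] at h1
        have h2 := h1.trans (min_le_left _ _)
        exact nonneg_of_mul_nonneg_right h2 hM
      have hB : 0 ≤ K * x.1.2 i₀ + 4 * D.r0 * ‖x.1‖ := by
        have h1 := ha.trans (min_le_right _ _)
        rw [L_sigf] at h1
        have h2 := h1.trans (min_le_right _ _)
        exact nonneg_of_mul_nonneg_right h2 hM
      have htp : (eL i₀ e ε R M K D).tp () .fold x ≤ ε * ‖x.1‖ := tp_le _ rfl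
      by_cases hc : ε * ‖x.1‖ ≤ M * (K * x.1.2 i₀ + 2 * D.r0 * ‖x.1‖)
      · refine ⟨.fold, ?_, ?_⟩
        · have e1 : (eL i₀ e ε R M K D).tp () .fold x = (eH i₀ e ε R M K D).tp () .fold x := by
            show ε * ‖x.1‖ - ‖(eL i₀ e ε R M K D).w () .fold x‖ =
              ε * ‖x.1‖ - ‖(eH i₀ e ε R M K D).w () .fold x‖
            rw [h.fold_w hA]
          refine le_min ((min_le_left _ _).trans e1.le) ?_
          rw [H_sigf]
          refine le_min ?_ ?_
          · refine (min_le_right _ _).trans ?_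
            rw [L_sigf]
            exact min_le_left _ _
          · exact (min_le_left _ _).trans (htp.trans hc)
        · rw [h.fold_be, h.fold_be' hA]
      · push Not at hc
        have hx1 : x.1 ≠ 0 := by
          intro h0
          rw [h0] at hc
          simp at hc
        have hw2 : K * x.1.2 i₀ + 2 * D.r0 * ‖x.1‖ < D.r0 / 2 * ‖x.1‖ := by
          by_contra h3
          push Not at h3
          have h4 := mul_le_mul_of_nonneg_left h3 hM.le
          have h5 := h.eps_le (x := x)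
          linarith
        have hwk : -(K * x.1.2 i₀) ≤ 4 * D.r0 * ‖x.1‖ := by linarith
        have hwk2 : K * x.1.2 i₀ ≤ -(D.r0 / 2 * ‖x.1‖) := by linarith
        have hdom : ε * ‖x.1‖ ≤ M * (-(K * x.1.2 i₀) - D.r0 * ‖x.1‖) := by
          refine (h.eps_le (x := x)).trans (mul_le_mul_of_nonneg_left ?_ hM.le)
          linarith
        have hσ : ∀ b : Bool, (eL i₀ e ε R M K D).rho () .fold x ≤
            (eH i₀ e ε R M K D).σ () (.sh (.inr b)) x := by
          intro b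
          rw [H_sig]
          refine le_min ?_ ((min_le_left _ _).trans (htp.trans hdom))
          refine (min_le_right _ _).trans ?_
          rw [L_sigf]
          exact min_le_left _ _
        rcases le_total (3 / 2 * D.r0 * ‖x.1‖) (inner ℝ (x.2 - ‖x.1‖ • D.vj) D.f) with hl | hl
        · refine ⟨.sh (.inr true), le_min ?_ (hσ true), ?_⟩
          · refine (min_le_left _ _).trans ?_
            show ε * ‖x.1‖ - ‖(eL i₀ e ε R M K D).w () .fold x‖ ≤
              ε * ‖x.1‖ - ‖(eL i₀ e ε R M K D).w () (.sh (.inr true)) x‖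
            rw [(h.fold_norm hA hwk2).1 hl, h.k_w hx1 hwk]
          · rw [h.fold_be]
            exact h.k_be hx1 hwk
        · refine ⟨.sh (.inr false), le_min ?_ (hσ false), ?_⟩
          · refine (min_le_left _ _).trans ?_
            show ε * ‖x.1‖ - ‖(eL i₀ e ε R M K D).w () .fold x‖ ≤
              ε * ‖x.1‖ - ‖(eH i₀ e ε R M K D).w () (.sh (.inr false)) x‖
            rw [(h.fold_norm hA hwk2).2 hl, t_w']
          · rw [h.fold_be]
            show inner ℝ ((eH i₀ e ε R M K D).w () (.sh (.inr false)) x) e = _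
            rw [t_w', inner_shift_sub h.fe]
  · intro x hx a ha
    have hg : 0 ≤ ‖x.1‖ := norm_nonneg _
    have hrg : 0 ≤ D.r0 * ‖x.1‖ := by positivity
    rcases a with _ | (a | b) | _
    · exact ⟨.slab, le_rfl, rfl⟩
    · exact ⟨.sh (.inl a), le_rfl, rfl⟩
    · have h1 := ha.trans (min_le_right _ _)
      rw [H_sig] at h1
      have hA : 0 ≤ x.1.1 - ‖x.1.2‖ / 2 :=
        nonneg_of_mul_nonneg_right (h1.trans (min_le_left _ _)) hM
      have hB : 0 ≤ -(K * x.1.2 i₀) - D.r0 * ‖x.1‖ :=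
        nonneg_of_mul_nonneg_right (h1.trans (min_le_right _ _)) hM
      have htp : (eH i₀ e ε R M K D).tp () (.sh (.inr b)) x ≤ ε * ‖x.1‖ := tp_le _ rfl
      have htp0 : 0 ≤ (eH i₀ e ε R M K D).tp () (.sh (.inr b)) x := ha.trans (min_le_left _ _)
      by_cases hc : ε * ‖x.1‖ ≤ M * (-(K * x.1.2 i₀) - 3 * D.r0 * ‖x.1‖)
      · have hσ : (eH i₀ e ε R M K D).rho () (.sh (.inr b)) x ≤
            (eL i₀ e ε R M K D).σ () (.sh (.inr b)) x := by
          rw [L_sig]
          refine le_min ?_ ((min_le_left _ _).trans (htp.trans hc))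
          refine (min_le_right _ _).trans ?_
          rw [H_sig]
          exact min_le_left _ _
        cases b
        · refine ⟨.sh (.inr false), le_min ((min_le_left _ _).trans ?_) hσ, ?_⟩
          · show ε * ‖x.1‖ - ‖(eH i₀ e ε R M K D).w () (.sh (.inr false)) x‖ ≤
              ε * ‖x.1‖ - ‖(eL i₀ e ε R M K D).w () (.sh (.inr false)) x‖
            rw [h.t_w hA, t_w']
          · show inner ℝ ((eL i₀ e ε R M K D).w () (.sh (.inr false)) x) e =
              inner ℝ ((eH i₀ e ε R M K D).w () (.sh (.inr false)) x) e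
            rw [h.t_w hA, t_w']
        · exact ⟨.sh (.inr true), le_min (min_le_left _ _) hσ, rfl⟩
      · push Not at hc
        have hx1 : x.1 ≠ 0 := by
          intro h0
          rw [h0] at hc
          simp at hc
        have hw2 : -(K * x.1.2 i₀) - 3 * D.r0 * ‖x.1‖ < D.r0 / 2 * ‖x.1‖ := by
          by_contra h3
          push Not at h3
          have h4 := mul_le_mul_of_nonneg_left h3 hM.le
          have h5 := h.eps_le (x := x)
          linarith
        have hwk : -(K * x.1.2 i₀) ≤ 4 * D.r0 * ‖x.1‖ := by linarith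
        have hwk2 : K * x.1.2 i₀ ≤ -(D.r0 / 2 * ‖x.1‖) := by linarith
        have hσ : (eH i₀ e ε R M K D).rho () (.sh (.inr b)) x ≤
            (eL i₀ e ε R M K D).σ () .fold x := by
          rw [L_sigf]
          refine le_min ?_ ((min_le_left _ _).trans (htp.trans ?_))
          · refine (min_le_right _ _).trans ?_
            rw [H_sig]
            exact min_le_left _ _
          · refine (h.eps_le (x := x)).trans (mul_le_mul_of_nonneg_left ?_ hM.le)
            linarith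
        have he32 : ε * ‖x.1‖ ≤ D.r0 / 2 * ‖x.1‖ :=
          mul_le_mul_of_nonneg_right (by linarith [h.hr]) hg
        cases b
        · have hw : ‖(eH i₀ e ε R M K D).w () (.sh (.inr false)) x‖ ≤ ε * ‖x.1‖ := by
            have : (eH i₀ e ε R M K D).tp () (.sh (.inr false)) x =
              ε * ‖x.1‖ - ‖(eH i₀ e ε R M K D).w () (.sh (.inr false)) x‖ := rfl
            linarith
          rw [t_w'] at hw
          have hl := abs_le.mp (h.inner_le hw)
          refine ⟨.fold, le_min ((min_le_left _ _).trans ?_) hσ, ?_⟩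
          · show ε * ‖x.1‖ - ‖(eH i₀ e ε R M K D).w () (.sh (.inr false)) x‖ ≤
              ε * ‖x.1‖ - ‖(eL i₀ e ε R M K D).w () .fold x‖
            rw [(h.fold_norm hA hwk2).2 (by linarith [hl.2]), t_w']
          · rw [h.fold_be]
            show _ = inner ℝ ((eH i₀ e ε R M K D).w () (.sh (.inr false)) x) e
            rw [t_w', inner_shift_sub h.fe]
        · have hw : ‖(eL i₀ e ε R M K D).w () (.sh (.inr true)) x‖ ≤ ε * ‖x.1‖ := by
            have : (eH i₀ e ε R M K D).tp () (.sh (.inr true)) x =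
              ε * ‖x.1‖ - ‖(eL i₀ e ε R M K D).w () (.sh (.inr true)) x‖ := rfl
            linarith
          rw [h.k_w hx1 hwk] at hw
          have hl := abs_le.mp (h.inner_le hw)
          refine ⟨.fold, le_min ((min_le_left _ _).trans ?_) hσ, ?_⟩
          · show ε * ‖x.1‖ - ‖(eL i₀ e ε R M K D).w () (.sh (.inr true)) x‖ ≤
              ε * ‖x.1‖ - ‖(eL i₀ e ε R M K D).w () .fold x‖
            rw [(h.fold_norm hA hwk2).1 (by linarith [hl.1]), h.k_w hx1 hwk]
          · rw [h.fold_be]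
            exact (h.k_be hx1 hwk).symm
    · have h1 := ha.trans (min_le_right _ _)
      rw [H_sigf] at h1
      have hA : 0 ≤ x.1.1 - ‖x.1.2‖ / 2 :=
        nonneg_of_mul_nonneg_right (h1.trans (min_le_left _ _)) hM
      refine ⟨.fold, min_le_min ?_ ?_, ?_⟩
      · show ε * ‖x.1‖ - ‖(eH i₀ e ε R M K D).w () .fold x‖ ≤
          ε * ‖x.1‖ - ‖(eL i₀ e ε R M K D).w () .fold x‖
        rw [h.fold_w hA]
      · rw [L_sigf, H_sigf]
        refine min_le_min_left _ (mul_le_mul_of_nonneg_left ?_ hM.le)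
        linarith
      · rw [h.fold_be, h.fold_be' hA]

end

end Vale.Agent.P268.T.H240
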