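import Vale.Agent.P268.T.H240.LDef
import Vale.Agent.P268.T.H293.ZipDef

/-!
# P268, topological half: the normal form with a ramp

`mplates`: the plates of the normal form `N(b)` in which the centre of the sheet `k` is
`‖s‖ (b k + θ (b j - b k))` with a ramp function `θ = θ(s)`; `zlin` = the ramp which stands just
left of the wall `{p i₀ = 0}`.
-/

set_option linter.unusedSectionVars false

namespace Vale.Agent.P268.T.H240

open Set Filter Topology Metric

variable {T P V A : Type*} [TopologicalSpace T] [NormedAddCommGroup P] [NormedSpace ℝ P]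
  [NormedAddCommGroup V] [InnerProductSpace ℝ V]

/-- The plates of the normal form with a ramp. -/
noncomputable def mplates [DecidableEq A] (e : V) (ε R M : ℝ) (b ν : A → P → V) (j k : A)
    (θ : T → ℝ × P → ℝ) : SheetData T ((ℝ × P) × V) V (Option A) where
  w := fun τ a x => a.elim x.2 fun a => x.2 - ‖x.1‖ • (if a = k then
    b k (kap x.1) + θ τ x.1 • (b j (kap x.1) - b k (kap x.1)) else b a (kap x.1))
  ν := fun _ a x => a.elim e fun a => ν a (kap x.1)
  r := fun _ a x => a.elim (R * ‖x.1‖) fun _ => ε * ‖x.1‖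
  σ := fun _ a x => a.elim (M * (‖x.1.2‖ - |x.1.1|)) fun _ => M * (x.1.1 - ‖x.1.2‖ / 2)

/-- The normal form with a ramp. -/
noncomputable def MF [Fintype A] [DecidableEq A] (e : V) (ε R M : ℝ) (b ν : A → P → V) (j k : A)
    (θ : ℝ × P → ℝ) : (ℝ × P) × V → ℂ :=
  (mplates e ε R M b ν j k (fun _ : Unit => θ)).fn ε (fun x => ‖x.1‖) ()

/-- The ramp just left of the wall, in its linear form. -/
noncomputable def zlin {ι : Type*} [Fintype ι] (i₀ : ι) (K r0 : ℝ) (s : ℝ × (ι → ℝ)) : ℝ :=
  Z293.c01 (1 + K * s.2 i₀ / (2 * r0 * ‖s‖))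

end Vale.Agent.P268.T.H240
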