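import Vale.Agent.P268.T.H240.MDef
import Vale.Agent.P268.T.H240.End

/-!
# P268, topological half: the start of the left family

The normal form with the ramp `zlin` has the same zeros as the start `θ = 0`, `u = 0` of the left
family.
-/

set_option linter.unusedSectionVars false

namespace Vale.Agent.P268.T.H240

open Set Filter Topology Metric

/-! ### Real functions -/

theorem lT_start {r0 K g w z : ℝ} (hw : K * w ≤ 0) : lT r0 K 0 g w z = 0 := by
  unfold lT
  rw [zero_mul, sub_zero]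
  exact max_eq_left ((min_le_right _ _).trans hw)

theorem lT_nonneg {r0 K u g w z : ℝ} : 0 ≤ lT r0 K u g w z := le_max_left _ _

/-- Left of the wall. -/
theorem lW_start {r0 K g w z l : ℝ} (hw : K * w ≤ 0) :
    lW r0 K 0 0 g w z l = max (l - min (-(K * w)) (2 * r0 * g)) (-l) := by
  unfold lW
  rw [lT_start hw]
  have h1 : max (K * w + (1 - 0) * l + 0 * |l - 3 / 2 * r0 * g|) (l - 2 * r0 * g) =
      l - min (-(K * w)) (2 * r0 * g) := by
    rcases le_total (-(K * w)) (2 * r0 * g) with h | h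
    · rw [min_eq_left h, max_eq_left (by linarith)]
      ring
    · rw [min_eq_right h, max_eq_right (by linarith)]
  rw [h1, zero_sub]

/-- Right of the wall. -/
theorem lW_right {r0 K g w z l : ℝ} (hw : 0 ≤ K * w) : |l| ≤ |lW r0 K 0 0 g w z l| := by
  refine le_trans ?_ (le_abs_self _)
  have hT : 0 ≤ lT r0 K 0 g w z := lT_nonneg
  unfold lW
  rcases le_total 0 l with h | h
  · rw [abs_of_nonneg h]
    refine le_max_of_le_left (le_max_of_le_left ?_)
    linarith
  · rw [abs_of_nonpos h]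
    refine le_max_of_le_right ?_
    linarith

/-- The alternative. -/
theorem lW_alt {r0 K g w z l : ℝ} : |l| ≤ |lW r0 K 0 0 g w z l| ∨
    (K * w ≤ 0 ∧ lW r0 K 0 0 g w z l = l - min (-(K * w)) (2 * r0 * g)) := by
  rcases le_total 0 (K * w) with h | h
  · exact Or.inl (lW_right h)
  · rw [lW_start h]
    rcases le_total (-l) (l - min (-(K * w)) (2 * r0 * g)) with h1 | h1
    · exact Or.inr ⟨h, max_eq_left h1⟩
    · left
      rw [max_eq_right h1, abs_neg]

theorem lW_start' {r0 K g w z l : ℝ} (hw : K * w ≤ 0) (hl : min (-(K * w)) (2 * r0 * g) ≤ 2 * l) :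
    lW r0 K 0 0 g w z l = l - min (-(K * w)) (2 * r0 * g) := by
  rw [lW_start hw]
  exact max_eq_left (by linarith)

section

variable {V A ι : Type*} [NormedAddCommGroup V] [InnerProductSpace ℝ V]
  [Fintype ι] [DecidableEq ι] [DecidableEq A]

/-- Data of the left family from the data of a normal form. -/
def toL (b ν : A → (ι → ℝ) → V) (k : A) (v f : V) (r : ℝ) : LData {i : A // i ≠ k} (ι → ℝ) V where
  b i := b i.1
  n i := ν i.1
  bk := b k
  nk := ν k
  vj := v
  f := f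
  r0 := r

theorem zlin_right {i₀ : ι} {K r : ℝ} (hK : 0 ≤ K) (hr : 0 < r) {s : ℝ × (ι → ℝ)}
    (hw : 0 ≤ s.2 i₀) : zlin i₀ K r s = 1 := by
  unfold zlin Z293.c01
  have : 0 ≤ K * s.2 i₀ / (2 * r * ‖s‖) := by positivity
  rw [min_eq_right (by linarith), max_eq_right zero_le_one]

/-- The displacement of the sheet `k` by the ramp. -/
theorem zlin_left {i₀ : ι} {K r : ℝ} (hr : 0 < r) {s : ℝ × (ι → ℝ)}
    (hw : K * s.2 i₀ ≤ 0) :
    2 * r * ‖s‖ * (1 - zlin i₀ K r s) = min (-(K * s.2 i₀)) (2 * r * ‖s‖) := by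
  rcases (norm_nonneg s).eq_or_lt with h0 | h0
  · have hs : s = 0 := by rwa [eq_comm, norm_eq_zero] at h0
    rw [hs]
    simp
  unfold zlin Z293.c01
  have hp : 0 < 2 * r * ‖s‖ := by positivity
  have h1 : K * s.2 i₀ / (2 * r * ‖s‖) ≤ 0 := div_nonpos_of_nonpos_of_nonneg hw hp.le
  rw [min_eq_left (by linarith)]
  rcases le_total (-(K * s.2 i₀)) (2 * r * ‖s‖) with h | h
  · rw [min_eq_left h, max_eq_right]
    · field_simp
      ring
    · rw [show (1 : ℝ) + K * s.2 i₀ / (2 * r * ‖s‖) =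
        (2 * r * ‖s‖ + K * s.2 i₀) / (2 * r * ‖s‖) by field_simp]
      exact div_nonneg (by linarith) hp.le
  · rw [min_eq_right h, max_eq_left]
    · ring
    · rw [show (1 : ℝ) + K * s.2 i₀ / (2 * r * ‖s‖) =
        (2 * r * ‖s‖ + K * s.2 i₀) / (2 * r * ‖s‖) by field_simp]
      exact div_nonpos_of_nonpos_of_nonneg (by linarith) hp.le

variable {i₀ : ι} {e : V} {ε R M K : ℝ} {b ν : A → (ι → ℝ) → V} {j k : A} {v f : V} {r : ℝ}

section Compare

variable (i₀ e ε R M K b ν j k v f r)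

/-- The plates at the start of the family. -/
noncomputable abbrev sL : SheetData Unit ((ℝ × (ι → ℝ)) × V) V (HIx {i : A // i ≠ k}) :=
  lplates i₀ e ε R M K (toL b ν k v f r) (fun _ => 0) (fun _ => 0)

/-- The plates of the normal form with the linear ramp. -/
noncomputable abbrev sM : SheetData Unit ((ℝ × (ι → ℝ)) × V) V (Option A) :=
  mplates e ε R M b ν j k (fun _ => zlin i₀ K r)

end Compare

variable {x : (ℝ × (ι → ℝ)) × V}

theorem kap_le {s : ℝ × (ι → ℝ)} {c : ℝ} (hc : 0 ≤ c) (h : 2 * s.2 i₀ ≤ c * ‖s‖) :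
    kap s i₀ ≤ c := by
  by_cases hs : s = 0
  · rw [hs, kap]
    simpa using hc
  have hm := kap_den_pos hs
  have hn : ‖s‖ ≤ max |s.1| (2 * ‖s.2‖) := by
    rw [norm_base]
    exact max_le_max le_rfl (by linarith [norm_nonneg s.2])
  rw [kap, Pi.smul_apply, smul_eq_mul, div_mul_eq_mul_div, div_le_iff₀ hm]
  nlinarith

theorem kap_nonpos {s : ℝ × (ι → ℝ)} (h : s.2 i₀ ≤ 0) : kap s i₀ ≤ 0 :=
  kap_le le_rfl (by linarith)

theorem kap_nonneg {s : ℝ × (ι → ℝ)} (h : 0 ≤ s.2 i₀) : 0 ≤ kap s i₀ := by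
  rw [kap, Pi.smul_apply, smul_eq_mul]
  positivity

theorem j_w (hjk : j ≠ k) (h : LAdm i₀ e ⟨j, hjk⟩ ε R M K (toL b ν k v f r))
    (hk : kap x.1 i₀ ≤ 1 / 4) :
    (sM i₀ e ε R M K b ν j k r).w () (some j) x = x.2 - ‖x.1‖ • v ∧
    (sM i₀ e ε R M K b ν j k r).be () (some j) x = inner ℝ (x.2 - ‖x.1‖ • v) e := by
  have hj := h.jb _ (kap_mem x.1) hk
  have h1 : b j (kap x.1) = v := hj.1
  have h2 : ν j (kap x.1) = e := hj.2
  have h3 : (sM i₀ e ε R M K b ν j k r).w () (some j) x = x.2 - ‖x.1‖ • v := by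
    show x.2 - ‖x.1‖ • (if j = k then _ else b j (kap x.1)) = _
    rw [if_neg hjk, h1]
  refine ⟨h3, ?_⟩
  show inner ℝ ((sM i₀ e ε R M K b ν j k r).w () (some j) x) (ν j (kap x.1)) = _
  rw [h3, h2]

theorem k_w_near (hjk : j ≠ k) (h : LAdm i₀ e ⟨j, hjk⟩ ε R M K (toL b ν k v f r))
    (hx : x.1 ≠ 0) (hw : K * x.1.2 i₀ ≤ 0) (hn : -(K * x.1.2 i₀) ≤ 4 * r * ‖x.1‖) :
    (sM i₀ e ε R M K b ν j k r).w () (some k) x =
      (x.2 - ‖x.1‖ • v) - min (-(K * x.1.2 i₀)) (2 * r * ‖x.1‖) • f ∧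
    (sM i₀ e ε R M K b ν j k r).be () (some k) x = inner ℝ (x.2 - ‖x.1‖ • v) e := by
  have hr : 0 < r := h.r0_pos
  have hK : 0 < K := by
    have := h.hK
    change 64 * r ≤ K at this
    linarith
  have hw0 : x.1.2 i₀ ≤ 0 := by
    by_contra hc
    push Not at hc
    have := mul_pos hK hc
    linarith
  have hkap : kap x.1 i₀ ≤ 0 := kap_nonpos hw0
  have hnear := h.near hx hn
  rw [lf_of_le hkap] at hnear
  have h1 : b k (kap x.1) = v + (2 * r) • f := hnear.1
  have h2 : ν k (kap x.1) = e := hnear.2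
  have h3 : b j (kap x.1) = v := (h.jb _ (kap_mem x.1) (by linarith)).1
  have h4 : (sM i₀ e ε R M K b ν j k r).w () (some k) x =
      (x.2 - ‖x.1‖ • v) - min (-(K * x.1.2 i₀)) (2 * r * ‖x.1‖) • f := by
    show x.2 - ‖x.1‖ • (if k = k then b k (kap x.1) +
      zlin i₀ K r x.1 • (b j (kap x.1) - b k (kap x.1)) else _) = _
    rw [if_pos rfl, h1, h3, ← zlin_left hr hw]
    module
  refine ⟨h4, ?_⟩
  have hfe : inner ℝ f e = 0 := h.fe
  show inner ℝ ((sM i₀ e ε R M K b ν j k r).w () (some k) x) (ν k (kap x.1)) = _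
  rw [h4, h2, inner_shift_sub hfe]

theorem k_w_far (hjk : j ≠ k) (h : LAdm i₀ e ⟨j, hjk⟩ ε R M K (toL b ν k v f r))
    (hw : 2 * r * ‖x.1‖ ≤ -(K * x.1.2 i₀)) :
    (sM i₀ e ε R M K b ν j k r).w () (some k) x =
      (sL i₀ e ε R M K b ν k v f r).w () (.sh (.inr true)) x ∧
    (sM i₀ e ε R M K b ν j k r).be () (some k) x =
      (sL i₀ e ε R M K b ν k v f r).be () (.sh (.inr true)) x := by
  have hr : 0 < r := h.r0_pos
  have hK : 0 < K := by
    have := h.hK
    change 64 * r ≤ K at this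
    linarith
  have hg : 0 ≤ 2 * r * ‖x.1‖ := by positivity
  have hw0 : x.1.2 i₀ ≤ 0 := by
    by_contra hc
    push Not at hc
    have := mul_pos hK hc
    linarith
  have hkap : kap x.1 i₀ ≤ 0 := kap_nonpos hw0
  have h4 : (sM i₀ e ε R M K b ν j k r).w () (some k) x =
      (sL i₀ e ε R M K b ν k v f r).w () (.sh (.inr true)) x := by
    show x.2 - ‖x.1‖ • (if k = k then b k (kap x.1) +
      zlin i₀ K r x.1 • (b j (kap x.1) - b k (kap x.1)) else _) =
      x.2 - ‖x.1‖ • b k (lf i₀ 0 (kap x.1))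
    rw [if_pos rfl, lf_of_le hkap]
    congr 1
    rcases (norm_nonneg x.1).eq_or_lt with h0 | h0
    · rw [← h0, zero_smul, zero_smul]
    · congr 1
      have h1 := zlin_left (i₀ := i₀) (K := K) hr (s := x.1) (by linarith)
      rw [min_eq_right hw] at h1
      have h2 : 0 < 2 * r * ‖x.1‖ := by positivity
      have h3 : zlin i₀ K r x.1 = 0 := by
        have h5 : 2 * r * ‖x.1‖ * zlin i₀ K r x.1 = 0 := by linarith
        rcases mul_eq_zero.mp h5 with h6 | h6
        · linarith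
        · exact h6
      rw [h3, zero_smul, add_zero]
  refine ⟨h4, ?_⟩
  show inner ℝ ((sM i₀ e ε R M K b ν j k r).w () (some k) x) (ν k (kap x.1)) =
    inner ℝ ((sL i₀ e ε R M K b ν k v f r).w () (.sh (.inr true)) x) (ν k (lf i₀ 0 (kap x.1)))
  rw [h4, lf_of_le hkap]


/-- Norm comparison with the sheet `j`. -/
theorem norm_le_of_coord {y f : V} (hf : ‖f‖ = 1) {c : ℝ} (hc : |inner ℝ y f| ≤ |c|) :
    ‖y‖ ≤ ‖y + (c - inner ℝ y f) • f‖ := by
  have h1 : ‖y + (c - inner ℝ y f) • f‖ ^ 2 = ‖y‖ ^ 2 + (c ^ 2 - inner ℝ y f ^ 2) := by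
    rw [← real_inner_self_eq_norm_sq, inner_add_left, inner_add_right, inner_add_right,
      inner_smul_left, inner_smul_right, inner_smul_left, inner_smul_right,
      real_inner_self_eq_norm_sq, real_inner_self_eq_norm_sq, hf, real_inner_comm f y]
    simp
    ring
  have h2 : inner ℝ y f ^ 2 ≤ c ^ 2 := sq_le_sq.mpr hc
  have h3 : ‖y‖ ^ 2 ≤ ‖y + (c - inner ℝ y f) • f‖ ^ 2 := by rw [h1]; linarith
  exact (pow_le_pow_iff_left₀ (norm_nonneg _) (norm_nonneg _) two_ne_zero).mp h3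

theorem coord_of_norm {y f : V} (hf : ‖f‖ = 1) {c : ℝ} (hc : 0 ≤ c) (h : ‖y - c • f‖ < ‖y‖) :
    c ≤ 2 * inner ℝ y f := by
  by_contra h0
  push Not at h0
  have h1 : ‖y - c • f‖ ^ 2 = ‖y‖ ^ 2 + c * (c - 2 * inner ℝ y f) := by
    rw [← real_inner_self_eq_norm_sq, inner_sub_left, inner_sub_right, inner_sub_right,
      inner_smul_left, inner_smul_right, inner_smul_left, inner_smul_right,
      real_inner_self_eq_norm_sq, real_inner_self_eq_norm_sq, hf, real_inner_comm f y]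
    simp
    ring
  have h2 : 0 ≤ c * (c - 2 * inner ℝ y f) := mul_nonneg hc (by linarith)
  have h3 : ‖y - c • f‖ ^ 2 < ‖y‖ ^ 2 := pow_lt_pow_left₀ h (norm_nonneg _) two_ne_zero
  linarith

theorem M_other {i : A} (hik : i ≠ k) :
    (sM i₀ e ε R M K b ν j k r).w () (some i) x =
      (sL i₀ e ε R M K b ν k v f r).w () (.sh (.inl ⟨i, hik⟩)) x ∧
    (sM i₀ e ε R M K b ν j k r).be () (some i) x =
      (sL i₀ e ε R M K b ν k v f r).be () (.sh (.inl ⟨i, hik⟩)) x := by
  have e1 : (sM i₀ e ε R M K b ν j k r).w () (some i) x =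
      (sL i₀ e ε R M K b ν k v f r).w () (.sh (.inl ⟨i, hik⟩)) x := by
    show x.2 - ‖x.1‖ • (if i = k then _ else b i (kap x.1)) = x.2 - ‖x.1‖ • b i (kap x.1)
    rw [if_neg hik]
  refine ⟨e1, ?_⟩
  show inner ℝ ((sM i₀ e ε R M K b ν j k r).w () (some i) x) (ν i (kap x.1)) =
    inner ℝ ((sL i₀ e ε R M K b ν k v f r).w () (.sh (.inl ⟨i, hik⟩)) x) (ν i (kap x.1))
  rw [e1]

theorem M_right (hr : 0 < r) (hK : 0 ≤ K) (hjk : j ≠ k)
    (hp : ∀ x ∈ closedBall (0 : ι → ℝ) 1, 0 ≤ x i₀ → ν k x = ν j x) (hw : 0 ≤ x.1.2 i₀) :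
    (sM i₀ e ε R M K b ν j k r).w () (some k) x = (sM i₀ e ε R M K b ν j k r).w () (some j) x ∧
    (sM i₀ e ε R M K b ν j k r).be () (some k) x =
      (sM i₀ e ε R M K b ν j k r).be () (some j) x := by
  have e1 : (sM i₀ e ε R M K b ν j k r).w () (some k) x =
      (sM i₀ e ε R M K b ν j k r).w () (some j) x := by
    show x.2 - ‖x.1‖ • (if k = k then b k (kap x.1) +
      zlin i₀ K r x.1 • (b j (kap x.1) - b k (kap x.1)) else _) =
      x.2 - ‖x.1‖ • (if j = k then _ else b j (kap x.1))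
    rw [if_pos rfl, if_neg hjk, zlin_right hK hr hw, one_smul, add_sub_cancel]
  refine ⟨e1, ?_⟩
  show inner ℝ ((sM i₀ e ε R M K b ν j k r).w () (some k) x) (ν k (kap x.1)) =
    inner ℝ ((sM i₀ e ε R M K b ν j k r).w () (some j) x) (ν j (kap x.1))
  rw [e1, hp _ (kap_mem x.1) (kap_nonneg hw)]

theorem sM_tp (i : A) : (sM i₀ e ε R M K b ν j k r).tp () (some i) x =
    ε * ‖x.1‖ - ‖(sM i₀ e ε R M K b ν j k r).w () (some i) x‖ := rfl

theorem sM_sig (i : A) : (sM i₀ e ε R M K b ν j k r).σ () (some i) x =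
    M * (x.1.1 - ‖x.1.2‖ / 2) := rfl

theorem sL_tp (a : {i : A // i ≠ k} ⊕ Bool) : (sL i₀ e ε R M K b ν k v f r).tp () (.sh a) x =
    ε * ‖x.1‖ - ‖(sL i₀ e ε R M K b ν k v f r).w () (.sh a) x‖ := rfl

theorem sL_tpf : (sL i₀ e ε R M K b ν k v f r).tp () .fold x =
    ε * ‖x.1‖ - ‖(sL i₀ e ε R M K b ν k v f r).w () .fold x‖ := rfl

theorem sL_sig (b' : Bool) : (sL i₀ e ε R M K b ν k v f r).σ () (.sh (.inr b')) x =
    min (M * (x.1.1 - ‖x.1.2‖ / 2)) (M * (-(K * x.1.2 i₀) - 3 * r * ‖x.1‖)) := rfl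

theorem sL_sigf : (sL i₀ e ε R M K b ν k v f r).σ () .fold x =
    min (M * (x.1.1 - ‖x.1.2‖ / 2)) (M * (K * x.1.2 i₀ + 4 * r * ‖x.1‖)) := rfl

theorem sL_wf : (sL i₀ e ε R M K b ν k v f r).w () .fold x = (x.2 - ‖x.1‖ • v) +
    (lW r K 0 0 ‖x.1‖ (x.1.2 i₀) x.1.1 (inner ℝ (x.2 - ‖x.1‖ • v) f) -
      inner ℝ (x.2 - ‖x.1‖ • v) f) • f := rfl

theorem sL_bef (hfe : inner ℝ f e = 0) : (sL i₀ e ε R M K b ν k v f r).be () .fold x =
    inner ℝ (x.2 - ‖x.1‖ • v) e := by
  show inner ℝ ((sL i₀ e ε R M K b ν k v f r).w () .fold x) e = _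
  rw [sL_wf, inner_shift' hfe]

theorem sL_wt (hw : K * x.1.2 i₀ ≤ 0) :
    (sL i₀ e ε R M K b ν k v f r).w () (.sh (.inr false)) x = x.2 - ‖x.1‖ • v := by
  show x.2 - ‖x.1‖ • v - lT r K 0 ‖x.1‖ (x.1.2 i₀) x.1.1 • f = _
  rw [lT_start hw, zero_smul, sub_zero]

/-- **The start of the left family is the normal form with the linear ramp.** -/
theorem lf_start_veq [Fintype A] (hjk : j ≠ k)
    (h : LAdm i₀ e ⟨j, hjk⟩ ε R M K (toL b ν k v f r))
    (hp : ∀ x ∈ closedBall (0 : ι → ℝ) 1, 0 ≤ x i₀ → ν k x = ν j x)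
    (hM : Glue (univ : Set Unit) ε (fun x : (ℝ × (ι → ℝ)) × V => ‖x.1‖)
      (sM i₀ e ε R M K b ν j k r).rho (sM i₀ e ε R M K b ν j k r).be)
    (hL : Glue (univ : Set Unit) ε (fun x : (ℝ × (ι → ℝ)) × V => ‖x.1‖)
      (sL i₀ e ε R M K b ν k v f r).rho (sL i₀ e ε R M K b ν k v f r).be) :
    VEq (MF e ε R M b ν j k (zlin i₀ K r)) (LF i₀ e ε R M K (toL b ν k v f r) 0 0) := by
  have hM0 : 0 < M := h.M_pos
  have hr : 0 < r := h.r0_pos
  have hf : ‖f‖ = 1 := h.ff
  have hK : 0 < K := by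
    have := h.hK
    change 64 * r ≤ K at this
    linarith
  have hKr : 64 * r ≤ K := h.hK
  have hfe : inner ℝ f e = 0 := h.fe
  have he32 : 32 * ε ≤ r := h.hr
  have heps : ∀ x : (ℝ × (ι → ℝ)) × V, ε * ‖x.1‖ ≤ M * (r / 2 * ‖x.1‖) := fun x => h.eps_le
  refine veq_of_dom hM (mem_univ ()) hL (mem_univ ()) ?_ ?_
  · intro x hx a ha
    have hg : 0 ≤ ‖x.1‖ := norm_nonneg _
    have hrg : 0 ≤ r * ‖x.1‖ := by positivity
    rcases a with _ | i
    · exact ⟨.slab, le_rfl, rfl⟩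
    by_cases hik : i = k
    swap
    · refine ⟨.sh (.inl ⟨i, hik⟩), ?_, (M_other hik).2.symm⟩
      refine min_le_min ?_ le_rfl
      rw [sM_tp, sL_tp, (M_other hik).1]
    rw [hik] at ha ⊢
    have hA : (sM i₀ e ε R M K b ν j k r).rho () (some k) x ≤ M * (x.1.1 - ‖x.1.2‖ / 2) :=
      min_le_right _ _
    have htp : (sM i₀ e ε R M K b ν j k r).rho () (some k) x ≤ ε * ‖x.1‖ := by
      refine (min_le_left _ _).trans ?_
      rw [sM_tp]
      linarith [norm_nonneg ((sM i₀ e ε R M K b ν j k r).w () (some k) x)]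
    by_cases hw : 0 ≤ x.1.2 i₀
    · obtain ⟨e1, e2⟩ := M_right (e := e) (ε := ε) (R := R) (M := M) (b := b) hr hK.le hjk hp hw
      refine ⟨.sh (.inl ⟨j, hjk⟩), ?_, ?_⟩
      · refine min_le_min ?_ le_rfl
        rw [sM_tp, sL_tp, ← (M_other hjk).1, e1]
      · rw [e2, (M_other hjk).2]
    push Not at hw
    have hKw : K * x.1.2 i₀ ≤ 0 := by nlinarith
    by_cases hc : ε * ‖x.1‖ ≤ M * (-(K * x.1.2 i₀) - 3 * r * ‖x.1‖)
    · have h2 : 0 ≤ -(K * x.1.2 i₀) - 3 * r * ‖x.1‖ := by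
        have h3 : 0 ≤ ε * ‖x.1‖ := mul_nonneg h.hε.le hg
        exact nonneg_of_mul_nonneg_right (h3.trans hc) hM0
      obtain ⟨e1, e2⟩ := k_w_far (x := x) hjk h (by linarith)
      refine ⟨.sh (.inr true), le_min ?_ ?_, e2.symm⟩
      · refine (min_le_left _ _).trans ?_
        rw [sM_tp, sL_tp, e1]
      · rw [sL_sig]
        exact le_min hA (htp.trans hc)
    push Not at hc
    have hx1 : x.1 ≠ 0 := by
      intro h0
      rw [h0] at hw
      simp at hw
    have hw2 : -(K * x.1.2 i₀) - 3 * r * ‖x.1‖ < r / 2 * ‖x.1‖ := by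
      by_contra h3
      push Not at h3
      have h4 := mul_le_mul_of_nonneg_left h3 hM0.le
      have h5 := heps x
      linarith
    obtain ⟨e1, e2⟩ := k_w_near (x := x) hjk h hx1 hKw (by linarith)
    have hT0 : 0 ≤ min (-(K * x.1.2 i₀)) (2 * r * ‖x.1‖) := le_min (by linarith) (by positivity)
    by_cases hyk : ‖x.2 - ‖x.1‖ • v‖ ≤
        ‖x.2 - ‖x.1‖ • v - min (-(K * x.1.2 i₀)) (2 * r * ‖x.1‖) • f‖
    · obtain ⟨e3, e4⟩ := j_w (x := x) hjk h (by linarith [kap_nonpos hw.le])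
      refine ⟨.sh (.inl ⟨j, hjk⟩), min_le_min ?_ le_rfl, ?_⟩
      · rw [sM_tp, sL_tp, ← (M_other hjk).1, e1, e3]
        linarith
      · rw [e2, ← (M_other hjk).2, e4]
    · push Not at hyk
      have h6 := coord_of_norm hf hT0 hyk
      refine ⟨.fold, le_min ?_ ?_, ?_⟩
      · refine (min_le_left _ _).trans ?_
        rw [sM_tp, sL_tpf, sL_wf, lW_start' hKw h6, e1]
        have : ∀ (y : V) (c d : ℝ), y + (c - d - c) • f = y - d • f := fun y c d => by module
        rw [this]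
      · rw [sL_sigf]
        refine le_min hA (htp.trans ((heps x).trans (mul_le_mul_of_nonneg_left ?_ hM0.le)))
        linarith
      · rw [sL_bef hfe, e2]
  · intro x hx a ha
    have hg : 0 ≤ ‖x.1‖ := norm_nonneg _
    have hrg : 0 ≤ r * ‖x.1‖ := by positivity
    rcases a with _ | (⟨i, hik⟩ | b') | _
    · exact ⟨none, le_rfl, rfl⟩
    · refine ⟨some i, min_le_min ?_ le_rfl, (M_other hik).2⟩
      rw [sM_tp, sL_tp, (M_other hik).1]
    · have h1 := ha.trans (min_le_right _ _)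
      rw [sL_sig] at h1
      have hB : 0 ≤ -(K * x.1.2 i₀) - 3 * r * ‖x.1‖ :=
        nonneg_of_mul_nonneg_right (h1.trans (min_le_right _ _)) hM0
      have hKw : K * x.1.2 i₀ ≤ 0 := by linarith
      have hw : x.1.2 i₀ ≤ 0 := by
        by_contra hc
        push Not at hc
        have := mul_pos hK hc
        linarith
      have hσ : (sL i₀ e ε R M K b ν k v f r).rho () (.sh (.inr b')) x ≤
          M * (x.1.1 - ‖x.1.2‖ / 2) := by
        refine (min_le_right _ _).trans ?_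
        rw [sL_sig]
        exact min_le_left _ _
      cases b'
      · obtain ⟨e3, e4⟩ := j_w (x := x) hjk h (by linarith [kap_nonpos hw])
        refine ⟨some j, le_min ((min_le_left _ _).trans ?_) hσ, ?_⟩
        · rw [sM_tp, sL_tp, e3, sL_wt hKw]
        · rw [e4]
          show _ = inner ℝ ((sL i₀ e ε R M K b ν k v f r).w () (.sh (.inr false)) x) e
          rw [sL_wt hKw]
      · obtain ⟨e1, e2⟩ := k_w_far (x := x) hjk h (by linarith)
        refine ⟨some k, le_min ((min_le_left _ _).trans ?_) hσ, e2⟩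
        rw [sM_tp, sL_tp, e1]
    · have hA : (sL i₀ e ε R M K b ν k v f r).rho () .fold x ≤ M * (x.1.1 - ‖x.1.2‖ / 2) := by
        refine (min_le_right _ _).trans ?_
        rw [sL_sigf]
        exact min_le_left _ _
      have h1 := ha.trans (min_le_right _ _)
      rw [sL_sigf] at h1
      have hB : 0 ≤ K * x.1.2 i₀ + 4 * r * ‖x.1‖ :=
        nonneg_of_mul_nonneg_right (h1.trans (min_le_right _ _)) hM0
      rcases lW_alt (r0 := r) (K := K) (g := ‖x.1‖) (w := x.1.2 i₀) (z := x.1.1)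
        (l := inner ℝ (x.2 - ‖x.1‖ • v) f) with halt | ⟨hKw, halt⟩
      · have hkap : kap x.1 i₀ ≤ 1 / 4 := by
          rcases le_total (x.1.2 i₀) 0 with hw | hw
          · linarith [kap_nonpos hw]
          · have h2 : ‖(sL i₀ e ε R M K b ν k v f r).w () .fold x‖ ≤ ε * ‖x.1‖ := by
              have := ha.trans (min_le_left _ _)
              rw [sL_tpf] at this
              linarith
            have h3 : |lW r K 0 0 ‖x.1‖ (x.1.2 i₀) x.1.1 (inner ℝ (x.2 - ‖x.1‖ • v) f)| ≤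
                ε * ‖x.1‖ := by
              refine le_trans ?_ h2
              rw [sL_wf]
              set y := x.2 - ‖x.1‖ • v with hy
              set W := lW r K 0 0 ‖x.1‖ (x.1.2 i₀) x.1.1 (inner ℝ y f) with hW
              have h4 : inner ℝ (y + (W - inner ℝ y f) • f) f = W := by
                rw [inner_shift hf]
                ring
              calc |W| = |inner ℝ (y + (W - inner ℝ y f) • f) f| := by rw [h4]
                _ ≤ ‖y + (W - inner ℝ y f) • f‖ * ‖f‖ := abs_real_inner_le_norm _ _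
                _ = _ := by rw [hf, mul_one]
            have h5 := (abs_le.mp h3).2
            have h6 : K * x.1.2 i₀ ≤ 2 * (ε * ‖x.1‖) := by
              have h7 : K * x.1.2 i₀ + (inner ℝ (x.2 - ‖x.1‖ • v) f) ≤
                  lW r K 0 0 ‖x.1‖ (x.1.2 i₀) x.1.1 (inner ℝ (x.2 - ‖x.1‖ • v) f) := by
                unfold lW
                refine le_max_of_le_left (le_max_of_le_left ?_)
                linarith
              have h8 : -(inner ℝ (x.2 - ‖x.1‖ • v) f) ≤
                  lW r K 0 0 ‖x.1‖ (x.1.2 i₀) x.1.1 (inner ℝ (x.2 - ‖x.1‖ • v) f) := by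
                unfold lW
                refine le_max_of_le_right ?_
                linarith [lT_nonneg (r0 := r) (K := K) (u := 0) (g := ‖x.1‖) (w := x.1.2 i₀)
                  (z := x.1.1)]
              linarith
            refine kap_le (by norm_num) ?_
            by_contra h9
            push Not at h9
            have h10 : 64 * r * (x.1.2 i₀) ≤ K * x.1.2 i₀ :=
              mul_le_mul_of_nonneg_right hKr hw
            have h11 : 64 * r * (1 / 8 * ‖x.1‖) < 64 * r * x.1.2 i₀ :=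
              mul_lt_mul_of_pos_left (by linarith) (by linarith)
            have h12 : 32 * ε * ‖x.1‖ ≤ r * ‖x.1‖ := mul_le_mul_of_nonneg_right he32 hg
            nlinarith
        obtain ⟨e3, e4⟩ := j_w (x := x) hjk h hkap
        refine ⟨some j, le_min ((min_le_left _ _).trans ?_) hA, ?_⟩
        · rw [sM_tp, sL_tpf, e3, sL_wf]
          linarith [norm_le_of_coord hf halt]
        · rw [e4, sL_bef hfe]
      · by_cases hx1 : x.1 = 0
        · have h2 : ‖(sL i₀ e ε R M K b ν k v f r).w () .fold x‖ ≤ 0 := by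
            have := ha.trans (min_le_left _ _)
            rw [sL_tpf, hx1, norm_zero, mul_zero] at this
            linarith
          rw [norm_le_zero_iff, sL_wf, halt, hx1] at h2
          exfalso
          apply hx
          refine Prod.ext hx1 ?_
          simpa using h2
        obtain ⟨e1, e2⟩ := k_w_near (x := x) hjk h hx1 hKw (by linarith)
        refine ⟨some k, le_min ((min_le_left _ _).trans ?_) hA, ?_⟩
        · rw [sM_tp, sL_tpf, e1, sL_wf, halt]
          have : ∀ (y : V) (c d : ℝ), y + (c - d - c) • f = y - d • f := fun y c d => by module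
          rw [this]
        · rw [e2, sL_bef hfe]

end

end Vale.Agent.P268.T.H240
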